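import Vale.Agent.P022.H220.Exp
import Vale.Agent.P022.H472.Lit

/-!
# P022-X: functions with expansions are holomorphic and bounded at `i∞`; modular forms from them
-/

open scoped ModularForm MatrixGroups Manifold
open UpperHalfPlane Matrix CongruenceSubgroup

noncomputable section

namespace Vale.Agent.P022.H889

open Vale.Agent.P022.H220

theorem norm_term (a : ℂ) (R : ℕ) (n : ℕ) (z : ℂ) :
    ‖a * Complex.exp (2 * Real.pi * Complex.I * n * z / R)‖ =
      ‖a‖ * Real.exp (-(2 * Real.pi * n * z.im / R)) := by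
  rw [norm_mul, Complex.norm_exp]
  congr 2
  have e : 2 * (Real.pi : ℂ) * Complex.I * n * z / R =
      ((2 * Real.pi * n / R : ℝ) : ℂ) * (Complex.I * z) := by
    push_cast; ring
  rw [e, Complex.re_ofReal_mul]
  simp
  ring

/-- a lower half plane of terms is dominated by the terms at its bottom -/
theorem term_le (a : ℂ) (R : ℕ) (n : ℕ) {y : ℝ} (z : ℂ) (h : y ≤ z.im) :
    ‖a * Complex.exp (2 * Real.pi * Complex.I * n * z / R)‖ ≤
      ‖a * Complex.exp (2 * Real.pi * Complex.I * n * (y * Complex.I) / R)‖ := by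
  rw [norm_term, norm_term]
  have e : ((y : ℂ) * Complex.I).im = y := by simp
  rw [e]
  refine mul_le_mul_of_nonneg_left (Real.exp_le_exp.2 (neg_le_neg ?_)) (norm_nonneg _)
  have hπ := Real.pi_pos.le
  gcongr

theorem summ_at {a : ℕ → ℂ} {R : ℕ} {F : ℍ → ℂ}
    (hs : ∀ τ : ℍ, HasSum (fun n : ℕ =>
      a n * Complex.exp (2 * Real.pi * Complex.I * n * (τ : ℂ) / R)) (F τ))
    {y : ℝ} (hy : 0 < y) : Summable fun n : ℕ =>
      ‖a n * Complex.exp (2 * Real.pi * Complex.I * n * (y * Complex.I) / R)‖ := by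
  have h := (hs ⟨y * Complex.I, by simpa using hy⟩).summable
  exact h.norm

/-- a function with an expansion is holomorphic -/
theorem Ex.mdiff {A : AddSubgroup ℂ} {R : ℕ} {F : ℍ → ℂ} (hF : Ex A R F) :
    MDifferentiable 𝓘(ℂ) 𝓘(ℂ) F := by
  obtain ⟨a, -, hs⟩ := hF
  rw [UpperHalfPlane.mdifferentiable_iff]
  have key : ∀ y : ℝ, 0 < y → DifferentiableOn ℂ
      (fun z : ℂ => ∑' n : ℕ, a n * Complex.exp (2 * Real.pi * Complex.I * n * z / R))
      {z : ℂ | y < z.im} := by
    intro y hy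
    exact Complex.differentiableOn_tsum_of_summable_norm (summ_at hs hy) (fun n => by fun_prop)
      (isOpen_lt continuous_const Complex.continuous_im)
      (fun n z hz => term_le _ _ _ z (le_of_lt hz))
  intro z hz
  have hz' : 0 < z.im := hz
  have h1 := key (z.im / 2) (by positivity)
  have hmem : {w : ℂ | z.im / 2 < w.im} ∈ nhds z :=
    (isOpen_lt continuous_const Complex.continuous_im).mem_nhds (by simp; linarith)
  have h2 : DifferentiableAt ℂ
      (fun z : ℂ => ∑' n : ℕ, a n * Complex.exp (2 * Real.pi * Complex.I * n * z / R)) z :=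
    h1.differentiableAt hmem
  refine (h2.congr_of_eventuallyEq ?_).differentiableWithinAt
  filter_upwards [hmem] with w hw
  have hw' : 0 < w.im := lt_trans (by positivity) hw
  have h3 := (hs (UpperHalfPlane.ofComplex w)).tsum_eq
  rw [UpperHalfPlane.ofComplex_apply_of_im_pos hw'] at h3
  rw [Function.comp_apply, UpperHalfPlane.ofComplex_apply_of_im_pos hw', ← h3]

/-- a function with an expansion is bounded at `i∞` -/
theorem Ex.bdd {A : AddSubgroup ℂ} {R : ℕ} {F : ℍ → ℂ} (hF : Ex A R F) :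
    IsBoundedAtImInfty F := by
  obtain ⟨a, -, hs⟩ := hF
  rw [UpperHalfPlane.isBoundedAtImInfty_iff]
  have h1 := summ_at hs one_pos
  refine ⟨∑' n : ℕ, ‖a n * Complex.exp (2 * Real.pi * Complex.I * n *
    ((1 : ℝ) * Complex.I) / R)‖, 1, fun τ hτ => ?_⟩
  rw [← (hs τ).tsum_eq]
  refine tsum_of_norm_bounded h1.hasSum fun n => ?_
  exact term_le _ _ _ (τ : ℂ) hτ

/-- a form invariant under `Γ₁(N)` all whose slashes have expansions is a modular form -/
def mf {N k : ℕ} [NeZero N] (F : ℍ → ℂ) (hinv : ∀ γ ∈ Gamma1 N, F ∣[(k : ℤ)] γ = F)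
    (hex : ∀ γ : SL(2, ℤ), ∃ (A : AddSubgroup ℂ) (R : ℕ), Ex A R (F ∣[(k : ℤ)] γ)) : MF N k where
  toFun := F
  slash_action_eq' := by
    rintro _ ⟨γ, hγ, rfl⟩
    exact hinv γ hγ
  holo' := by
    obtain ⟨A, R, h⟩ := hex 1
    rw [SlashAction.slash_one] at h
    exact Ex.mdiff h
  bdd_at_cusps' {c} hc := by
    rw [Subgroup.IsArithmetic.isCusp_iff_isCusp_SL2Z] at hc
    rw [OnePoint.isBoundedAt_iff_forall_SL2Z hc]
    intro γ _
    obtain ⟨A, R, h⟩ := hex γ
    exact Ex.bdd h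

@[simp] theorem mf_coe {N k : ℕ} [NeZero N] (F : ℍ → ℂ)
    (hinv : ∀ γ ∈ Gamma1 N, F ∣[(k : ℤ)] γ = F)
    (hex : ∀ γ : SL(2, ℤ), ∃ (A : AddSubgroup ℂ) (R : ℕ), Ex A R (F ∣[(k : ℤ)] γ)) :
    ((mf F hinv hex : MF N k) : ℍ → ℂ) = F :=
  rfl

end Vale.Agent.P022.H889
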