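import Vale.Agent.P022.H889.Rex1
import Vale.Agent.P022.H933.Ext2

/-!
# P022-R, [REX]: Hecke's theta series of weight one has expansions with bounded denominators at
every cusp
-/

open UpperHalfPlane hiding I
open Filter Topology Matrix.SpecialLinearGroup CongruenceSubgroup Complex
open scoped MatrixGroups ModularForm Manifold Real ComplexConjugate

noncomputable section

namespace Vale.Agent.P022.H889

open Vale.Agent.P022 Vale.Agent.P022.H352 Vale.Agent.P022.H477 Vale.Agent.P022.H964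
open Vale.Agent.P022.H220

/-! ### the `S`-law -/

theorem im_S {D M : ℕ} (hD : 0 < D) (hM : 0 < M) {w : ℂ} (hw : 0 < w.im) :
    0 < (-1 / ((D : ℂ) * M ^ 2 * w)).im ∧
    √((-1 / ((D : ℂ) * M ^ 2 * w)).im) = √w.im / (√(D : ℝ) * M * ‖w‖) := by
  have hw0 : w ≠ 0 := by rintro rfl; simp at hw
  have hD' : (0 : ℝ) < D := by exact_mod_cast hD
  have hM' : (0 : ℝ) < M := by exact_mod_cast hM
  have hn : 0 < ‖w‖ := norm_pos_iff.2 hw0
  have h1 : (-1 / ((D : ℂ) * M ^ 2 * w)).im = w.im / (D * M ^ 2 * ‖w‖ ^ 2) := by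
    have e : (-1 / ((D : ℂ) * M ^ 2 * w)) = (((D * M ^ 2)⁻¹ : ℝ) : ℂ) * (-w⁻¹) := by
      push_cast
      field_simp
    rw [e, Complex.im_ofReal_mul, Complex.neg_im, Complex.inv_im, Complex.normSq_eq_norm_sq]
    field_simp
  rw [h1]
  refine ⟨by positivity, ?_⟩
  have h2 : w.im / (D * M ^ 2 * ‖w‖ ^ 2) = (√w.im / (√(D : ℝ) * M * ‖w‖)) ^ 2 := by
    rw [div_pow, Real.sq_sqrt hw.le, mul_pow, mul_pow, Real.sq_sqrt hD'.le]
  rw [h2, Real.sqrt_sq (by positivity)]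

theorem rsl (hP : RPOStmt) (hU : RUNFStmt) {a b c : ℤ} {D : ℕ} (ha : 0 < a)
    (hns : ¬ IsSquare D) (h : b ^ 2 - 4 * a * c = D) {u : ℝ} {A : (ℤ × ℤ) ≃+ (ℤ × ℤ)}
    (hA : Unt a b D u A) {M : ℕ} (hM : 0 < M) {f : ℤ × ℤ → ℂ} (hf : Per M f)
    (hi : ∀ v, f (A v) = f v) {w : ℂ} (hw : 0 < w.im) :
    hR a b c D u 1 f w = -(1 / ((√(D : ℝ) : ℂ) * M ^ 2 * w)) *
      hR a b c D u (-1) (hatF M f) (-1 / (D * M ^ 2 * w)) ∧
    hR a b c D u (-1) f w = (1 / ((√(D : ℝ) : ℂ) * M ^ 2 * w)) *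
      hR a b c D u 1 (hatF M f) (-1 / (D * M ^ 2 * w)) := by
  have hD : 0 < D := Nat.pos_of_ne_zero fun h0 => hns ⟨0, by simpa using h0⟩
  have hw0 : w ≠ 0 := by rintro rfl; simp at hw
  obtain ⟨him, hsq⟩ := im_S hD hM hw
  have hu : 0 < Real.log u := Real.log_pos hA.one_lt
  obtain ⟨h1, h2⟩ := hU a b c D ha hns h u A hA M hM f hf hi w hw
  obtain ⟨h3, h4⟩ := hU a b c D ha hns h u A hA M hM (hatF M f) (per_hatF M hM f)
    (hatF_inv ha hD hA hM hf hi) _ him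
  have hy : (√w.im : ℂ) ≠ 0 := by
    exact_mod_cast (Real.sqrt_pos.2 hw).ne'
  have hD' : (√(D : ℝ) : ℂ) ≠ 0 := by
    exact_mod_cast (Real.sqrt_pos.2 (by exact_mod_cast hD : (0 : ℝ) < D)).ne'
  have hDD : ((√(D : ℝ) : ℝ) : ℂ) ^ 2 = (D : ℂ) := by
    rw [← Complex.ofReal_pow, Real.sq_sqrt (Nat.cast_nonneg D)]
    simp
  have hM' : (M : ℂ) ≠ 0 := by exact_mod_cast hM.ne'
  have hn : ((‖w‖ : ℝ) : ℂ) ≠ 0 := by exact_mod_cast (norm_pos_iff.2 hw0).ne'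
  rw [hsq] at h3 h4
  constructor
  · have e1 : ∀ t ∈ Set.uIcc (0 : ℝ) (Real.log u), Tp a b D (Real.exp t) f w =
        -(1 / (D * M ^ 3 * w * ‖w‖)) *
          Tm a b D (Real.exp t) (hatF M f) (-1 / (D * M ^ 2 * w)) := fun t _ =>
      (hP a b c D ha hD h M hM f hf (Real.exp t) (Real.exp_pos t) w hw).1
    rw [intervalIntegral.integral_congr e1, intervalIntegral.integral_const_mul, h4] at h1
    rw [eq_div_iff (mul_ne_zero two_ne_zero hy)] at h1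
    rw [← h1, ← hDD]
    push_cast
    field_simp
  · have e1 : ∀ t ∈ Set.uIcc (0 : ℝ) (Real.log u), Tm a b D (Real.exp t) f w =
        (1 / (D * M ^ 3 * w * ‖w‖)) *
          Tp a b D (Real.exp t) (hatF M f) (-1 / (D * M ^ 2 * w)) := fun t _ =>
      (hP a b c D ha hD h M hM f hf (Real.exp t) (Real.exp_pos t) w hw).2
    rw [intervalIntegral.integral_congr e1, intervalIntegral.integral_const_mul, h3] at h2
    rw [eq_div_iff (mul_ne_zero two_ne_zero hy)] at h2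
    rw [← h2, ← hDD]
    push_cast
    field_simp

/-! ### the fundamental domain -/

theorem FD_lower {a b c : ℤ} {D : ℕ} (ha : 0 < a) (hD : 0 < D) (h : b ^ 2 - 4 * a * c = D)
    {u : ℝ} (hu : 1 < u) : ∃ c₀ : ℝ, 0 < c₀ ∧ ∀ s : ℤ, (s = 1 ∨ s = -1) →
    ∀ v ∈ FD a b c D u s, c₀ * ((v.1 : ℝ) ^ 2 + (v.2 : ℝ) ^ 2) ≤ s * Qf a b c v := by
  have ha' : (0 : ℝ) < a := by exact_mod_cast ha
  have hD' : (0 : ℝ) < D := by exact_mod_cast hD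
  have hDD : √(D : ℝ) ^ 2 = D := Real.sq_sqrt hD'.le
  have h' : (b : ℝ) ^ 2 - 4 * a * c = D := by exact_mod_cast h
  -- `e1² + e2² ≥ c₁ (x² + y²)`
  set S : ℝ := 4 * a ^ 2 + (b ^ 2 + D) with hS
  have hS0 : 0 < S := by positivity
  have h1 : ∀ v : ℤ × ℤ, 4 * a ^ 2 * D * ((v.1 : ℝ) ^ 2 + (v.2 : ℝ) ^ 2) ≤
      2 * S * (e1 a b D v ^ 2 + e2 a b D v ^ 2) := by
    intro v
    have e : e1 a b D v ^ 2 + e2 a b D v ^ 2 = 2 * a ^ 2 * (v.1 : ℝ) ^ 2 +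
        2 * a * b * v.1 * v.2 + (b ^ 2 + D) / 2 * (v.2 : ℝ) ^ 2 := by
      simp only [e1, e2]
      linear_combination ((v.2 : ℝ) ^ 2 / 2) * hDD
    rw [e, hS]
    nlinarith [sq_nonneg (4 * (a : ℝ) ^ 2 * v.1 + 2 * a * b * v.2),
      sq_nonneg (((b : ℝ) ^ 2 + D) * v.2 + 2 * a * b * v.1)]
  refine ⟨4 * a ^ 2 * D / (2 * S * ((u ^ 2 + 1) * a)), by positivity, ?_⟩
  rintro s hs v ⟨hv1, hv2, hv3⟩
  have hsQ : (0 : ℝ) < s * Qf a b c v := by exact_mod_cast hv1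
  have h2 := e1_mul_e2 h v
  have h3 : |e1 a b D v| * |e2 a b D v| = a * (s * Qf a b c v) := by
    rw [← abs_mul, h2, abs_mul, abs_of_pos ha']
    congr 1
    rcases hs with rfl | rfl
    · push_cast at hsQ ⊢
      rw [one_mul] at hsQ ⊢
      exact abs_of_pos hsQ
    · push_cast at hsQ ⊢
      rw [abs_of_neg (by linarith)]
      ring
  have h4 : e1 a b D v ^ 2 ≤ u ^ 2 * (a * (s * Qf a b c v)) := by
    rw [← h3, ← sq_abs (e1 a b D v)]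
    nlinarith [abs_nonneg (e1 a b D v), abs_nonneg (e2 a b D v)]
  have h5 : e2 a b D v ^ 2 ≤ a * (s * Qf a b c v) := by
    rw [← h3, ← sq_abs (e2 a b D v)]
    nlinarith [abs_nonneg (e1 a b D v), abs_nonneg (e2 a b D v)]
  have h6 := h1 v
  rw [div_mul_eq_mul_div, div_le_iff₀ (by positivity)]
  have h7 : e1 a b D v ^ 2 + e2 a b D v ^ 2 ≤ (u ^ 2 + 1) * a * (s * Qf a b c v) := by
    nlinarith
  nlinarith

/-! ### general expansions -/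

/-- collecting a lattice sum with finite fibres -/
theorem ex_fiber {ι : Type*} (g : ι → ℂ) (N : ι → ℕ) {R : ℕ} {F : ℍ → ℂ} {B : AddSubgroup ℂ}
    (hfin : ∀ n, {v | g v ≠ 0 ∧ N v = n}.Finite) (hg : ∀ v, g v ∈ B)
    (hs : ∀ τ : ℍ, HasSum (fun v => g v * cexp (2 * π * I * N v * (τ : ℂ) / R)) (F τ)) :
    Ex B R F := by
  classical
  refine ⟨fun n => ∑ v ∈ (hfin n).toFinset, g v, fun n => B.sum_mem fun v _ => hg v,
    fun τ => ?_⟩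
  have h2 := (hs τ).tsum_fiberwise N
  refine hs_congr' h2 fun n => ?_
  have h3 : ∑' v : (N ⁻¹' {n}), g v * cexp (2 * π * I * N v * (τ : ℂ) / R) =
      ∑ v ∈ (hfin n).toFinset, g v * cexp (2 * π * I * N v * (τ : ℂ) / R) := by
    rw [tsum_subtype (N ⁻¹' {n}) (fun v => g v * cexp (2 * π * I * N v * (τ : ℂ) / R))]
    rw [tsum_eq_sum (s := (hfin n).toFinset)]
    · refine Finset.sum_congr rfl fun v hv => ?_
      rw [Set.Finite.mem_toFinset] at hv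
      exact Set.indicator_of_mem (by exact hv.2) _
    · intro v hv
      rw [Set.Finite.mem_toFinset] at hv
      by_cases h5 : v ∈ N ⁻¹' {n}
      · rw [Set.indicator_of_mem h5]
        have h6 : g v = 0 := by
          by_contra h7
          exact hv ⟨h7, h5⟩
        rw [h6, zero_mul]
      · exact Set.indicator_of_notMem h5 _
  rw [h3, Finset.sum_mul]
  refine Finset.sum_congr rfl fun v hv => ?_
  rw [Set.Finite.mem_toFinset] at hv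
  rw [hv.2]

/-! ### expansions of `hR` -/

theorem sgn_int (x : ℝ) : IsIntegral ℤ (((SignType.sign x : ℤ) : ℂ)) :=
  isIntegral_algebraMap (R := ℤ) (A := ℂ) (x := ((SignType.sign x : SignType) : ℤ))

theorem norm_sgn_le (x : ℝ) : ‖(((SignType.sign x : SignType) : ℤ) : ℂ)‖ ≤ 1 := by
  rcases lt_trichotomy x 0 with h | h | h
  · simp [sign_neg h]
  · simp [h]
  · simp [sign_pos h]

theorem hC_int {a b c : ℤ} {D : ℕ} {u : ℝ} {s : ℤ} {f : ℤ × ℤ → ℂ}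
    (hi : ∀ v, IsIntegral ℤ (f v)) (v : ℤ × ℤ) : IsIntegral ℤ (hC a b c D u s f v) := by
  by_cases hv : v ∈ FD a b c D u s
  · rw [hC, Set.indicator_of_mem hv]
    exact (hi v).mul (sgn_int _)
  · rw [hC, Set.indicator_of_notMem hv]
    exact isIntegral_zero

/-- summability, with an arbitrary upper half plane variable -/
theorem summ_hC {a b c : ℤ} {D : ℕ} (ha : 0 < a) (hD : 0 < D) (h : b ^ 2 - 4 * a * c = D)
    {u : ℝ} (hu : 1 < u) {s : ℤ} (hs : s = 1 ∨ s = -1) {q : ℕ} (hq : 0 < q) {f : ℤ × ℤ → ℂ}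
    (hf : Per q f) {w : ℂ} (hw : 0 < w.im) : Summable fun v : ℤ × ℤ =>
      hC a b c D u s f v * cexp (2 * π * I * ((s * Qf a b c v : ℤ) : ℂ) * w) := by
  obtain ⟨c₀, h0, hl⟩ := FD_lower ha hD h hu
  obtain ⟨B, hB0, hB⟩ := per_bounded hq hf
  have hA : 0 < 2 * π * w.im * c₀ := by positivity
  have h1 := summable_exp_sq hA
  have h2 : Summable fun x : ℤ × ℤ =>
      Real.exp (-(2 * π * w.im * c₀ * (x.1 : ℝ) ^ 2)) *
        Real.exp (-(2 * π * w.im * c₀ * (x.2 : ℝ) ^ 2)) :=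
    h1.mul_of_nonneg h1 (fun _ => (Real.exp_pos _).le) (fun _ => (Real.exp_pos _).le)
  refine Summable.of_norm_bounded (h2.mul_left B) fun v => ?_
  by_cases hv : v ∈ FD a b c D u s
  · rw [hC, Set.indicator_of_mem hv, norm_mul, norm_mul, Complex.norm_exp, ← Real.exp_add]
    have e : (2 * π * I * ((s * Qf a b c v : ℤ) : ℂ) * w).re =
        -(2 * π * w.im * (s * Qf a b c v)) := by
      have : (2 * π * I * ((s * Qf a b c v : ℤ) : ℂ) * w) =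
          ((2 * π * (s * Qf a b c v) : ℝ) : ℂ) * (I * w) := by
        push_cast; ring
      rw [this, Complex.re_ofReal_mul]
      simp
      ring
    rw [e]
    have h3 := hl s hs v hv
    have h4 : Real.exp (-(2 * π * w.im * (s * Qf a b c v))) ≤
        Real.exp (-(2 * π * w.im * c₀ * (v.1 : ℝ) ^ 2) + -(2 * π * w.im * c₀ * (v.2 : ℝ) ^ 2)) := by
      refine Real.exp_le_exp.2 ?_
      have h5 : 0 < 2 * π * w.im := by positivity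
      have h6 := mul_le_mul_of_nonneg_left h3 h5.le
      linarith
    have h7 : ‖f v‖ * ‖(((SignType.sign (e1 a b D v) : SignType) : ℤ) : ℂ)‖ ≤ B := by
      have := mul_le_mul (hB v) (norm_sgn_le (e1 a b D v)) (norm_nonneg _) hB0
      rwa [mul_one] at this
    exact mul_le_mul h7 h4 (Real.exp_pos _).le hB0
  · rw [hC, Set.indicator_of_notMem hv, zero_mul, norm_zero]
    positivity

theorem finite_FD {a b c : ℤ} {D : ℕ} (ha : 0 < a) (hD : 0 < D) (h : b ^ 2 - 4 * a * c = D)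
    {u : ℝ} (hu : 1 < u) {s : ℤ} (hs : s = 1 ∨ s = -1) (n : ℤ) :
    {v : ℤ × ℤ | v ∈ FD a b c D u s ∧ s * Qf a b c v ≤ n}.Finite := by
  obtain ⟨c₀, h0, hl⟩ := FD_lower ha hD h hu
  obtain ⟨M, hM⟩ := exists_nat_gt ((n : ℝ) / c₀)
  refine ((Finset.Icc (-(M : ℤ)) M ×ˢ Finset.Icc (-(M : ℤ)) M).finite_toSet).subset ?_
  rintro v ⟨hvF, hv⟩
  have hv' : (s * Qf a b c v : ℝ) ≤ n := by exact_mod_cast hv
  have h1 : (v.1 : ℝ) ^ 2 + (v.2 : ℝ) ^ 2 < M := by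
    refine lt_of_le_of_lt ?_ hM
    rw [le_div_iff₀ h0]
    linarith [hl s hs v hvF]
  have h2 : v.1 ^ 2 + v.2 ^ 2 < (M : ℤ) := by exact_mod_cast h1
  have hb : ∀ x : ℤ, x ^ 2 < M → x ∈ Finset.Icc (-(M : ℤ)) M := by
    intro x hx
    rw [Finset.mem_Icc]
    constructor
    · by_contra hc
      nlinarith
    · by_contra hc
      nlinarith
  rw [Finset.mem_coe, Finset.mem_product]
  exact ⟨hb _ (by nlinarith [sq_nonneg v.2]), hb _ (by nlinarith [sq_nonneg v.1])⟩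

/-- the index of `v` -/
def idR (a b c : ℤ) (s : ℤ) (ρ : ℚ) (v : ℤ × ℤ) : ℕ := (ρ.num * (s * Qf a b c v)).toNat

/-- the expansion of `hR (ρ τ)` with coefficients `C * f(v)` in a given subgroup -/
theorem ex_hR {a b c : ℤ} {D : ℕ} (ha : 0 < a) (hD : 0 < D) (h : b ^ 2 - 4 * a * c = D)
    {u : ℝ} (hu : 1 < u) {s : ℤ} (hs : s = 1 ∨ s = -1) {q : ℕ} (hq : 0 < q) {f : ℤ × ℤ → ℂ}
    (hf : Per q f) {ρ : ℚ} (hρ : 0 < ρ) {B : AddSubgroup ℂ} {C : ℂ}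
    (hB : ∀ v, C * hC a b c D u s f v ∈ B) :
    Ex B ρ.den (fun τ : ℍ => C * hR a b c D u s f (ρ * τ)) := by
  have hn : 0 < ρ.num := Rat.num_pos.2 hρ
  refine ex_fiber (fun v => C * hC a b c D u s f v) (idR a b c s ρ) (fun n => ?_) hB
    (fun τ => ?_)
  · refine (finite_FD ha hD h hu hs n).subset ?_
    rintro v ⟨hv1, hv2⟩
    have hv : v ∈ FD a b c D u s := by
      by_contra hc
      apply hv1
      rw [hC, Set.indicator_of_notMem hc, mul_zero]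
    refine ⟨hv, ?_⟩
    have hv3 : 0 < s * Qf a b c v := hv.1
    have h4 : ((ρ.num * (s * Qf a b c v)).toNat : ℤ) = n := by exact_mod_cast hv2
    rw [Int.toNat_of_nonneg (by positivity)] at h4
    nlinarith
  · have hw : 0 < ((ρ : ℂ) * (τ : ℂ)).im := by
      have : ((ρ : ℚ) : ℂ) = ((ρ : ℝ) : ℂ) := by push_cast; rfl
      rw [this, Complex.im_ofReal_mul]
      exact mul_pos (by exact_mod_cast hρ) τ.im_pos
    have h1 := ((summ_hC ha hD h hu hs hq hf hw).hasSum).mul_left C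
    refine hs_congr' h1 fun v => ?_
    by_cases hv : v ∈ FD a b c D u s
    · have hv3 : 0 < s * Qf a b c v := hv.1
      have h5 : ((idR a b c s ρ v : ℕ) : ℂ) = ρ.num * ((s * Qf a b c v : ℤ) : ℂ) := by
        have : ((idR a b c s ρ v : ℕ) : ℤ) = ρ.num * (s * Qf a b c v) :=
          Int.toNat_of_nonneg (by positivity)
        exact_mod_cast this
      have h7 : (ρ : ℂ) = ρ.num / ρ.den := by exact_mod_cast (Rat.num_div_den ρ).symm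
      rw [h5, mul_assoc]
      congr 3
      rw [h7]
      ring
    · rw [hC, Set.indicator_of_notMem hv]
      ring

/-! ### the stable family -/

/-- the stable family, with algebraic constants and algebraic integer functions -/
def VR (a b c : ℤ) (D : ℕ) (u : ℝ) (A : (ℤ × ℤ) ≃+ (ℤ × ℤ)) : Set (ℍ → ℂ) :=
  {F | ∃ (C : ℂ) (ρ : ℚ) (s : ℤ) (f : ℤ × ℤ → ℂ) (q : ℕ), IsAlgebraic ℚ C ∧ 0 < ρ ∧
    (s = 1 ∨ s = -1) ∧ 0 < q ∧ Per q f ∧ (∀ v, f (A v) = f v) ∧ (∀ v, IsIntegral ℤ (f v)) ∧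
    ∀ τ : ℍ, F τ = C * hR a b c D u s f (ρ * τ)}

theorem hR_add (a b c : ℤ) (D : ℕ) (u : ℝ) (s : ℤ) (ρ : ℚ) (f : ℤ × ℤ → ℂ) (t : ℤ) (w : ℂ) :
    hR a b c D u s f (ρ * (t + w)) = hR a b c D u s (mulE a b c ρ f (t * s)) (ρ * w) := by
  simp only [hR]
  refine tsum_congr fun v => ?_
  by_cases hv : v ∈ FD a b c D u s
  · rw [hC, hC, Set.indicator_of_mem hv, Set.indicator_of_mem hv]
    simp only [mulE]
    rw [show (2 * π * I * ((s * Qf a b c v : ℤ) : ℂ) * (ρ * (t + w)) : ℂ) =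
      2 * π * I * ((t * s : ℤ) : ℂ) * (ρ * Qf a b c v) +
        2 * π * I * ((s * Qf a b c v : ℤ) : ℂ) * (ρ * w) by push_cast; ring, Complex.exp_add]
    ring
  · rw [hC, hC, Set.indicator_of_notMem hv, Set.indicator_of_notMem hv]
    ring

theorem VR_T {a b c : ℤ} {D : ℕ} (ha : 0 < a) (h : b ^ 2 - 4 * a * c = D) {u : ℝ}
    {A : (ℤ × ℤ) ≃+ (ℤ × ℤ)} (hA : Unt a b D u A) {F : ℍ → ℂ} (hF : F ∈ VR a b c D u A)
    (t : ℤ) : F ∣[(1 : ℤ)] (ModularGroup.T ^ t) ∈ VR a b c D u A := by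
  obtain ⟨C, ρ, s, f, q, hC, hρ, hs, hq, hf, hinv, hi, hFe⟩ := hF
  refine ⟨C, ρ, s, mulE a b c ρ f (t * s), q * ρ.den, hC, hρ, hs, Nat.mul_pos hq ρ.den_pos,
    per_mulE a b c ρ hf (t * s), fun v => ?_, int_mulE a b c ρ hi (t * s), ?_⟩
  · simp only [mulE]
    rw [hinv, Q_inv hA ha h]
  intro τ
  have h1 : (F ∣[(1 : ℤ)] (ModularGroup.T ^ t)) τ = F ((t : ℝ) +ᵥ τ) := by
    have h2 : denom (ModularGroup.T ^ t : SL(2, ℤ)) τ = 1 := by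
      rw [ModularGroup.denom_apply, ModularGroup.coe_T_zpow]
      simp
    rw [ModularForm.SL_slash_apply, UpperHalfPlane.modular_T_zpow_smul, h2, one_zpow, mul_one]
  rw [h1, hFe]
  rw [← hR_add]
  simp

theorem VR_S (hP : RPOStmt) (hU : RUNFStmt) {a b c : ℤ} {D : ℕ} (ha : 0 < a)
    (hns : ¬ IsSquare D) (h : b ^ 2 - 4 * a * c = D) {u : ℝ} {A : (ℤ × ℤ) ≃+ (ℤ × ℤ)}
    (hA : Unt a b D u A) {F : ℍ → ℂ} (hF : F ∈ VR a b c D u A) :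
    F ∣[(1 : ℤ)] ModularGroup.S ∈ VR a b c D u A := by
  have hD : 0 < D := Nat.pos_of_ne_zero fun h0 => hns ⟨0, by simpa using h0⟩
  obtain ⟨C, ρ, s, f, q, hC, hρ, hs, hq, hf, hinv, hi, hFe⟩ := hF
  have hρ' : (ρ : ℂ) ≠ 0 := by exact_mod_cast hρ.ne'
  have hD' : (D : ℂ) ≠ 0 := by exact_mod_cast hD.ne'
  have hq' : (q : ℂ) ≠ 0 := by exact_mod_cast hq.ne'
  have hs' : ((√(D : ℝ) : ℝ) : ℂ) ≠ 0 := by
    have : √(D : ℝ) ≠ 0 := (Real.sqrt_pos.2 (by exact_mod_cast hD)).ne'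
    exact_mod_cast this
  refine ⟨C * ((s : ℂ) / ((√(D : ℝ) : ℂ) * q ^ 2 * ρ)), 1 / (D * q ^ 2 * ρ), -s, hatF q f, q,
    ?_, by positivity, ?_, hq, per_hatF q hq f, hatF_inv ha hD hA hq hf hinv,
    int_hatF q hq hi, ?_⟩
  · have hq1 : IsAlgebraic ℚ (q : ℂ) := by
      simpa using isAlgebraic_algebraMap (R := ℚ) (A := ℂ) (q : ℚ)
    have hρ1 : IsAlgebraic ℚ (ρ : ℂ) := by
      simpa using isAlgebraic_algebraMap (R := ℚ) (A := ℂ) ρ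
    have hs1 : IsAlgebraic ℚ (s : ℂ) := by
      simpa using isAlgebraic_algebraMap (R := ℚ) (A := ℂ) (s : ℚ)
    have h1 : IsAlgebraic ℚ (((√(D : ℝ) : ℝ) : ℂ) * q ^ 2 * ρ) :=
      ((isAlgebraic_sqrt D).mul (hq1.pow 2)).mul hρ1
    rw [div_eq_mul_inv]
    exact hC.mul (hs1.mul h1.inv)
  · rcases hs with rfl | rfl
    · exact Or.inr rfl
    · exact Or.inl (by norm_num)
  intro τ
  rw [SlashInvariantForm.slash_S_apply, hFe]
  have hτ : (τ : ℂ) ≠ 0 := τ.ne_zero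
  have h3 : 0 < ((ρ : ℂ) * (-(τ : ℂ))⁻¹).im := by
    have h4 : ((ρ : ℂ) * (-(τ : ℂ))⁻¹).im = ρ * (-(τ : ℂ))⁻¹.im := by
      have : (ρ : ℂ) = ((ρ : ℝ) : ℂ) := by push_cast; rfl
      rw [this, Complex.im_ofReal_mul]
    rw [h4]
    exact mul_pos (by exact_mod_cast hρ) τ.im_inv_neg_coe_pos
  obtain ⟨h5, h5'⟩ := rsl hP hU ha hns h hA hq hf hinv h3
  have h6 : (-1 / ((D : ℂ) * q ^ 2 * (ρ * (-(τ : ℂ))⁻¹))) =
      ((1 / (D * q ^ 2 * ρ) : ℚ) : ℂ) * τ := by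
    push_cast
    field_simp
  rw [h6] at h5 h5'
  rcases hs with rfl | rfl
  · simp only [h5]
    rw [show (-(1 : ℤ)) = -1 from rfl]
    push_cast
    rw [_root_.zpow_neg, zpow_one]
    field_simp
  · simp only [h5']
    rw [show (-(-1 : ℤ)) = 1 by norm_num]
    push_cast
    rw [_root_.zpow_neg, zpow_one]
    field_simp

theorem VR_all (hP : RPOStmt) (hU : RUNFStmt) {a b c : ℤ} {D : ℕ} (ha : 0 < a)
    (hns : ¬ IsSquare D) (h : b ^ 2 - 4 * a * c = D) {u : ℝ} {A : (ℤ × ℤ) ≃+ (ℤ × ℤ)}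
    (hA : Unt a b D u A) {F : ℍ → ℂ} (hF : F ∈ VR a b c D u A) (γ : SL(2, ℤ)) :
    F ∣[(1 : ℤ)] γ ∈ VR a b c D u A := by
  refine stable (k := (1 : ℤ)) (V := VR a b c D u A)
    (fun f hf => VR_S hP hU ha hns h hA hf) (fun f hf => ?_) (fun f hf => ?_) γ F hF
  · simpa using VR_T ha h hA hf 1
  · simpa using VR_T ha h hA hf (-1)

theorem ex_VR {a b c : ℤ} {D : ℕ} (ha : 0 < a) (hD : 0 < D) (h : b ^ 2 - 4 * a * c = D)
    {u : ℝ} {A : (ℤ × ℤ) ≃+ (ℤ × ℤ)} (hA : Unt a b D u A) {O : Subring ℂ}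
    (hO1 : ∀ x : ℂ, IsIntegral ℤ x → x ∈ O) (hO2 : ∀ n : ℕ, Odd n → (n : ℂ)⁻¹ ∈ O)
    {F : ℍ → ℂ} (hF : F ∈ VR a b c D u A) : ∃ R : ℕ, 0 < R ∧ ∃ B, Ex (H964.dn B O) R F := by
  obtain ⟨C, ρ, s, f, q, hC, hρ, hs, hq, hf, -, hi, hFe⟩ := hF
  obtain ⟨B, hB⟩ := alg_dn hO1 hO2 hC
  exact ⟨ρ.den, ρ.den_pos, B, Ex.congr hFe
    (ex_hR ha hD h hA.one_lt hs hq hf hρ fun v => hB _ (hO1 _ (hC_int hi v)))⟩

theorem mem_VR {a b c : ℤ} {D : ℕ} {u : ℝ} {A : (ℤ × ℤ) ≃+ (ℤ × ℤ)} {s : ℤ}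
    (hs : s = 1 ∨ s = -1) {m : ℕ} (hm : 0 < m) {f : ℤ × ℤ → ℂ} (hf : Per m f)
    (hinv : ∀ v, f (A v) = f v) (hi : ∀ v, IsIntegral ℤ (f v)) :
    (fun τ : ℍ => hR a b c D u s f τ) ∈ VR a b c D u A :=
  ⟨1, 1, s, f, m, isAlgebraic_one, one_pos, hs, hm, hf, hinv, hi, fun τ => by simp⟩

/-- **[REX]**: Hecke's theta series has expansions with coefficients in `2 ^ (-B) O` at every
cusp -/
theorem rex (hP : RPOStmt) (hU : RUNFStmt) {a b c : ℤ} {D : ℕ} (ha : 0 < a)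
    (hns : ¬ IsSquare D) (h : b ^ 2 - 4 * a * c = D) {u : ℝ} {A : (ℤ × ℤ) ≃+ (ℤ × ℤ)}
    (hA : Unt a b D u A) {s : ℤ} (hs : s = 1 ∨ s = -1) {m : ℕ} (hm : 0 < m) {f : ℤ × ℤ → ℂ}
    (hf : Per m f) (hinv : ∀ v, f (A v) = f v) (hi : ∀ v, IsIntegral ℤ (f v)) {O : Subring ℂ}
    (hO1 : ∀ x : ℂ, IsIntegral ℤ x → x ∈ O) (hO2 : ∀ n : ℕ, Odd n → (n : ℂ)⁻¹ ∈ O)
    (γ : SL(2, ℤ)) : ∃ R : ℕ, 0 < R ∧ ∃ B,
      Ex (H964.dn B O) R ((fun τ : ℍ => hR a b c D u s f τ) ∣[(1 : ℤ)] γ) :=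
  ex_VR ha (Nat.pos_of_ne_zero fun h0 => hns ⟨0, by simpa using h0⟩) h hA hO1 hO2
    (VR_all hP hU ha hns h hA (mem_VR hs hm hf hinv hi) γ)

/-- **[REX], uniform form** -/
theorem rex_unif (hP : RPOStmt) (hU : RUNFStmt) {a b c : ℤ} {D : ℕ} (ha : 0 < a)
    (hns : ¬ IsSquare D) (h : b ^ 2 - 4 * a * c = D) {u : ℝ} {A : (ℤ × ℤ) ≃+ (ℤ × ℤ)}
    (hA : Unt a b D u A) {s : ℤ} (hs : s = 1 ∨ s = -1) {m : ℕ} (hm : 0 < m) {f : ℤ × ℤ → ℂ}
    (hf : Per m f) (hinv : ∀ v, f (A v) = f v) (hi : ∀ v, IsIntegral ℤ (f v)) {O : Subring ℂ}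
    (hO1 : ∀ x : ℂ, IsIntegral ℤ x → x ∈ O) (hO2 : ∀ n : ℕ, Odd n → (n : ℂ)⁻¹ ∈ O)
    (Γ : Subgroup SL(2, ℤ)) [Γ.FiniteIndex]
    (hΓ : ∀ δ ∈ Γ, (fun τ : ℍ => hR a b c D u s f τ) ∣[(1 : ℤ)] δ =
      fun τ : ℍ => hR a b c D u s f τ) :
    ∃ R : ℕ, 0 < R ∧ ∃ B, ∀ γ : SL(2, ℤ),
      Ex (H964.dn B O) R ((fun τ : ℍ => hR a b c D u s f τ) ∣[(1 : ℤ)] γ) :=
  unif Γ hΓ fun γ => rex hP hU ha hns h hA hs hm hf hinv hi hO1 hO2 γ

/-- for an arbitrary periodic `f`: every slash has some expansion (holomorphy and boundedness at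
the cusps follow by `Ex.mdiff`, `Ex.bdd`) -/
theorem ex_one {a b c : ℤ} {D : ℕ} (ha : 0 < a) (hD : 0 < D) (h : b ^ 2 - 4 * a * c = D)
    {u : ℝ} (hu : 1 < u) {s : ℤ} (hs : s = 1 ∨ s = -1) {q : ℕ} (hq : 0 < q) {f : ℤ × ℤ → ℂ}
    (hf : Per q f) {O : Subring ℂ} (hi : ∀ v, f v ∈ O) :
    Ex O.toAddSubgroup 1 (fun τ : ℍ => hR a b c D u s f τ) := by
  have h1 : Ex O.toAddSubgroup (1 : ℚ).den
      (fun τ : ℍ => (1 : ℂ) * hR a b c D u s f ((1 : ℚ) * τ)) := by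
    refine ex_hR ha hD h hu hs hq hf one_pos fun v => ?_
    rw [one_mul]
    by_cases hv : v ∈ FD a b c D u s
    · rw [hC, Set.indicator_of_mem hv]
      exact O.mul_mem (hi v) (intCast_mem O _)
    · rw [hC, Set.indicator_of_notMem hv]
      exact O.zero_mem
  simpa using h1

theorem dn_le {B : ℕ} {O : Subring ℂ} : H964.dn B O ≤ X.mulS ((2 : ℂ)⁻¹ ^ B) O := by
  intro x hx
  rw [mem_dn] at hx
  exact ⟨_, hx, by rw [← mul_assoc, ← mul_pow]; norm_num⟩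

/-- [REX] in the form of `X.THXStmt` -/
theorem rexX (hP : RPOStmt) (hU : RUNFStmt) {a b c : ℤ} {D : ℕ} (ha : 0 < a)
    (hns : ¬ IsSquare D) (h : b ^ 2 - 4 * a * c = D) {u : ℝ} {A : (ℤ × ℤ) ≃+ (ℤ × ℤ)}
    (hA : Unt a b D u A) {s : ℤ} (hs : s = 1 ∨ s = -1) {m : ℕ} (hm : 0 < m) {f : ℤ × ℤ → ℂ}
    (hf : Per m f) (hinv : ∀ v, f (A v) = f v) (hi : ∀ v, IsIntegral ℤ (f v)) {O : Subring ℂ}
    (hO1 : ∀ x : ℂ, IsIntegral ℤ x → x ∈ O) (hO2 : ∀ n : ℕ, Odd n → (n : ℂ)⁻¹ ∈ O)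
    (F : ℍ → ℂ) (hF : ∀ τ : ℍ, F τ = hR a b c D u s f τ) (γ : SL(2, ℤ)) :
    ∃ R B : ℕ, 0 < R ∧ Ex (X.mulS ((2 : ℂ)⁻¹ ^ B) O) R (F ∣[((1 : ℕ) : ℤ)] γ) := by
  obtain ⟨R, hR', B, hB⟩ := rex hP hU ha hns h hA hs hm hf hinv hi hO1 hO2 γ
  have e : F = fun τ : ℍ => hR a b c D u s f τ := funext hF
  refine ⟨R, B, hR', ?_⟩
  rw [e]
  exact (hB.mono dn_le)

end Vale.Agent.P022.H889
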