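import Vale.Agent.P022.H889.Hs
import Vale.Agent.P022.H933.Ext2

/-!
# P022-X, [HS2] in the literal of `H933.Ext2`
-/

open scoped ModularForm MatrixGroups
open UpperHalfPlane Matrix

noncomputable section

namespace Vale.Agent.P022.H889

open Vale.Agent.P022.H220

theorem rootStable_of_int {O : Subring ℂ} (hO : ∀ z : ℂ, IsIntegral ℤ z → z ∈ O) :
    Ex.RootStable O.toAddSubgroup := by
  intro a ha z n hn hz
  refine O.mul_mem (hO z (IsIntegral.of_pow hn ?_)) ha
  rw [hz]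
  exact isIntegral_one

theorem HS2 : X.HS2Stmt := by
  intro s
  have hZ : Ex.RootStable X.Zb.toAddSubgroup := rootStable_of_int fun z hz => hz
  refine ⟨kk s, H s, ?_, fun γ hγ => H_inv s γ (by exact_mod_cast hγ), fun γ hγ => ?_⟩
  · simpa using H_one X.Zb s
  · refine ⟨2 ^ s, by positivity, ?_⟩
    have h := H_off X.Zb hZ s γ (by exact_mod_cast hγ)
    have h2 : Ex (X.mulS 2 X.Zb) (2 ^ s) (fun τ => 2 * ((H s ∣[((kk s : ℕ) : ℤ)] γ) τ / 2)) :=
      Ex.smul (c := 2) (B := X.mulS 2 X.Zb) (fun a ha => ⟨a, ha, rfl⟩) h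
    exact Ex.congr (fun τ => by ring) h2

end Vale.Agent.P022.H889
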