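import Vale.Agent.P022.H220.Exp

/-!
# P022-X, block [E4]: the form `g = (E₄(w) - 16 E₄(2w)) / (-15)` of weight 4 on `Γ₀(2)`
-/

open scoped ModularForm MatrixGroups
open UpperHalfPlane Matrix

noncomputable section

namespace Vale.Agent.P022.H889

open Vale.Agent.P022.H220

/-- the factor of automorphy -/
def den (γ : SL(2, ℤ)) (τ : ℍ) : ℂ := (γ.1 1 0 : ℂ) * (τ : ℂ) + (γ.1 1 1 : ℂ)

theorem denom_eq (γ : SL(2, ℤ)) (τ : ℍ) :
    denom (Matrix.SpecialLinearGroup.toGL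
      ((Matrix.SpecialLinearGroup.map (Int.castRingHom ℝ)) γ)) (τ : ℂ) = den γ τ := by
  simp [denom, den]

theorem den_ne (γ : SL(2, ℤ)) (τ : ℍ) : den γ τ ≠ 0 := by
  rw [← denom_eq]
  exact denom_ne_zero _ τ

theorem slash_eq (F : ℍ → ℂ) (k : ℕ) (γ : SL(2, ℤ)) (τ : ℍ) :
    (F ∣[(k : ℤ)] γ) τ = F (γ • τ) / den γ τ ^ k := by
  rw [ModularForm.SL_slash_apply, denom_eq, _root_.zpow_neg, zpow_natCast, div_eq_mul_inv]

theorem smul_coe (γ : SL(2, ℤ)) (τ : ℍ) :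
    ((γ • τ : ℍ) : ℂ) = ((γ.1 0 0 : ℂ) * τ + (γ.1 0 1 : ℂ)) / den γ τ := by
  rw [UpperHalfPlane.specialLinearGroup_apply]
  simp [den]

/-- `2 τ` -/
def dbl (τ : ℍ) : ℍ := ⟨2 * (τ : ℂ), by
  have := τ.im_pos
  simpa using this⟩

/-- `(τ + t) / 2` -/
def hlf (t : ℤ) (τ : ℍ) : ℍ := ⟨((τ : ℂ) + t) / 2, by
  have := τ.im_pos
  simpa using this⟩

@[simp] theorem dbl_coe (τ : ℍ) : ((dbl τ : ℍ) : ℂ) = 2 * (τ : ℂ) := rfl

@[simp] theorem hlf_coe (t : ℤ) (τ : ℍ) : ((hlf t τ : ℍ) : ℂ) = ((τ : ℂ) + t) / 2 := rfl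

theorem det_eq (γ : SL(2, ℤ)) : γ.1 0 0 * γ.1 1 1 - γ.1 0 1 * γ.1 1 0 = 1 := by
  have h := γ.2
  rwa [Matrix.det_fin_two] at h

/-- a matrix with given entries -/
theorem exists_sl (a b c d : ℤ) (h : a * d - b * c = 1) : ∃ γ : SL(2, ℤ),
    γ.1 0 0 = a ∧ γ.1 0 1 = b ∧ γ.1 1 0 = c ∧ γ.1 1 1 = d :=
  ⟨⟨!![a, b; c, d], by rw [Matrix.det_fin_two_of]; exact h⟩, by simp, by simp, by simp, by simp⟩

/-- `C` even -/
theorem dbl_even (γ : SL(2, ℤ)) (h : (2 : ℤ) ∣ γ.1 1 0) :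
    ∃ γ' : SL(2, ℤ), γ.1 1 0 = 2 * γ'.1 1 0 ∧
      ∀ τ : ℍ, dbl (γ • τ) = γ' • dbl τ ∧ den γ' (dbl τ) = den γ τ := by
  obtain ⟨e, he⟩ := h
  have hd := det_eq γ
  obtain ⟨γ', h1, h2, h3, h4⟩ := exists_sl (γ.1 0 0) (2 * γ.1 0 1) e (γ.1 1 1)
    (by rw [he] at hd; linear_combination hd)
  refine ⟨γ', by rw [h3]; exact he, fun τ => ?_⟩
  have e1 : den γ' (dbl τ) = den γ τ := by
    simp only [den, he, h3, h4, dbl_coe]
    push_cast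
    ring
  refine ⟨?_, e1⟩
  apply UpperHalfPlane.ext
  rw [smul_coe, e1, dbl_coe, smul_coe, h1, h2, dbl_coe]
  push_cast
  ring

/-- `C` odd -/
theorem dbl_odd (γ : SL(2, ℤ)) (h : ¬ (2 : ℤ) ∣ γ.1 1 0) :
    ∃ γ' : SL(2, ℤ), ∀ τ : ℍ, dbl (γ • τ) = γ' • hlf (γ.1 1 1) τ ∧
      2 * den γ' (hlf (γ.1 1 1) τ) = den γ τ := by
  obtain ⟨e, he⟩ : Odd (γ.1 1 0) := by
    rw [← Int.not_even_iff_odd, even_iff_two_dvd]
    exact h
  have hd := det_eq γ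
  obtain ⟨γ', h1, h2, h3, h4⟩ := exists_sl (2 * γ.1 0 0) (γ.1 0 1 - γ.1 0 0 * γ.1 1 1)
    (γ.1 1 0) (-(γ.1 1 1 * e)) (by linear_combination hd + (γ.1 0 0 * γ.1 1 1) * he)
  refine ⟨γ', fun τ => ?_⟩
  have heC : (γ.1 1 0 : ℂ) = 2 * e + 1 := by rw [he]; push_cast; ring
  have e1 : 2 * den γ' (hlf (γ.1 1 1) τ) = den γ τ := by
    simp only [den, h3, h4, hlf_coe]
    push_cast
    linear_combination (γ.1 1 1 : ℂ) * heC
  refine ⟨?_, e1⟩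
  apply UpperHalfPlane.ext
  have h5 := den_ne γ τ
  have h6 : den γ' (hlf (γ.1 1 1) τ) = den γ τ / 2 := by
    rw [← e1]; ring
  rw [smul_coe, h6, dbl_coe, smul_coe, h1, h2, hlf_coe]
  push_cast
  field_simp
  ring

/-- `F(2 ·)` under the slash, `C` even -/
theorem slash_even (F : ℍ → ℂ) (k : ℕ) (γ γ' : SL(2, ℤ))
    (h : ∀ τ : ℍ, dbl (γ • τ) = γ' • dbl τ ∧ den γ' (dbl τ) = den γ τ) (τ : ℍ) :
    ((fun τ => F (dbl τ)) ∣[(k : ℤ)] γ) τ = (F ∣[(k : ℤ)] γ') (dbl τ) := by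
  rw [slash_eq, slash_eq, (h τ).1, (h τ).2]

/-- `F(2 ·)` under the slash, `C` odd -/
theorem slash_odd (F : ℍ → ℂ) (k : ℕ) (γ γ' : SL(2, ℤ)) (t : ℤ)
    (h : ∀ τ : ℍ, dbl (γ • τ) = γ' • hlf t τ ∧ 2 * den γ' (hlf t τ) = den γ τ) (τ : ℍ) :
    2 ^ k * ((fun τ => F (dbl τ)) ∣[(k : ℤ)] γ) τ = (F ∣[(k : ℤ)] γ') (hlf t τ) := by
  rw [slash_eq, slash_eq, (h τ).1, ← (h τ).2, mul_pow]
  have := den_ne γ' (hlf t τ)
  field_simp

/-- the Eisenstein series of weight 4 -/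
def E (τ : ℍ) : ℂ := (ModularForm.E (k := 4) (by norm_num)) τ

theorem E_smul (γ : SL(2, ℤ)) (τ : ℍ) : E (γ • τ) = den γ τ ^ 4 * E τ := by
  have h : (ModularForm.E (k := 4) (by norm_num) : ℍ → ℂ) ∣[((4 : ℕ) : ℤ)] γ =
      (ModularForm.E (k := 4) (by norm_num) : ℍ → ℂ) :=
    SlashInvariantFormClass.slash_action_eq (ModularForm.E (k := 4) (by norm_num)) _
      (by exact ⟨γ, rfl⟩)
  have h1 := congrFun h τ
  rw [slash_eq, div_eq_iff (pow_ne_zero _ (den_ne γ τ))] at h1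
  rw [E, E, h1, mul_comm]

theorem bern : (bernoulli 4 : ℚ) = -1 / 30 := by
  rw [bernoulli_eq_bernoulli'_of_ne_one (by norm_num), bernoulli'_four]

/-- the expansion of `(E₄ - 1) / 240` -/
theorem e_hasSum (τ : ℍ) : HasSum (fun n : ℕ => (ArithmeticFunction.sigma 3 n : ℂ) *
    Complex.exp (2 * Real.pi * Complex.I * n * (τ : ℂ) / (1 : ℕ))) ((E τ - 1) / 240) := by
  have hS : Summable fun n : ℕ => (ArithmeticFunction.sigma (4 - 1) n : ℂ) *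
      Complex.exp (2 * Real.pi * Complex.I * τ) ^ n :=
    EisensteinSeries.summable_sigma_mul_cexp_pow (k := 4) (by omega) τ
  have hval : (E τ - 1) / 240 = ∑' n : ℕ, (ArithmeticFunction.sigma (4 - 1) n : ℂ) *
      Complex.exp (2 * Real.pi * Complex.I * τ) ^ n := by
    have h := EisensteinSeries.q_expansion_bernoulli (k := 4) (by norm_num) (by decide) τ
    simp_rw [zpow_natCast] at h
    have h2 := hS.tsum_eq_zero_add
    rw [h2, E, h, bern, ← tsum_pnat_eq_tsum_succ (f := fun n =>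
      (ArithmeticFunction.sigma (4 - 1) n : ℂ) *
        Complex.exp (2 * Real.pi * Complex.I * τ) ^ n)]
    push_cast
    simp
    ring
  rw [hval]
  refine hs_congr' hS.hasSum fun n => ?_
  rw [← Complex.exp_nat_mul]
  congr 2
  push_cast
  ring

theorem Ex_e (A : Subring ℂ) : Ex A.toAddSubgroup 1 (fun τ => (E τ - 1) / 240) :=
  ⟨fun n => (ArithmeticFunction.sigma 3 n : ℂ), fun _ => natCast_mem A _, e_hasSum⟩

/-- `g = (E₄(w) - 16 E₄(2w)) / (-15)` -/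
def g (τ : ℍ) : ℂ := (E τ - 16 * E (dbl τ)) / (-15)

/-- `g ∈ 1 + 16 A[[q]]` -/
theorem g_one (A : Subring ℂ) : Ex A.toAddSubgroup 1 (fun τ => (g τ - 1) / 16) := by
  have h1 := Ex_e A
  have h2 : Ex A.toAddSubgroup 1 (fun τ => (E (dbl τ) - 1) / 240) :=
    Ex.dil (c := 2) (by norm_num) (fun τ => ⟨dbl τ, by simp, rfl⟩) h1
  have h3 : Ex A.toAddSubgroup 1 (fun τ => 16 * ((E (dbl τ) - 1) / 240)) :=
    Ex.smul (fun a ha => A.mul_mem (by exact_mod_cast natCast_mem A 16) ha) h2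
  refine Ex.congr (fun τ => ?_) (Ex.sub h3 h1)
  rw [g]
  ring

/-- `g` is invariant under `Γ₀(2)` -/
theorem g_even (γ : SL(2, ℤ)) (h : (2 : ℤ) ∣ γ.1 1 0) : g ∣[((4 : ℕ) : ℤ)] γ = g := by
  obtain ⟨γ', -, h1⟩ := dbl_even γ h
  funext τ
  rw [slash_eq, div_eq_iff (pow_ne_zero _ (den_ne γ τ)), g, g, (h1 τ).1, E_smul, E_smul, (h1 τ).2]
  ring

/-- `g` at the other cusp -/
theorem g_odd (A : Subring ℂ) (hA : Ex.RootStable A.toAddSubgroup) (γ : SL(2, ℤ))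
    (h : ¬ (2 : ℤ) ∣ γ.1 1 0) :
    Ex A.toAddSubgroup 2 (fun τ => (g ∣[((4 : ℕ) : ℤ)] γ) τ / 16) := by
  obtain ⟨γ', h1⟩ := dbl_odd γ h
  have h2 : Ex A.toAddSubgroup (1 * 2) (fun τ => (E τ - 1) / 240) :=
    Ex.up (by norm_num) (by norm_num) (Ex_e A)
  have h3 : Ex A.toAddSubgroup (1 * 2) (fun τ => (E (hlf (γ.1 1 1) τ) - 1) / 240) :=
    Ex.tri (c := 1) (by norm_num) hA (by norm_num) (by norm_num) (γ.1 1 1)
      (fun τ => ⟨hlf (γ.1 1 1) τ, by simp, rfl⟩) (Ex_e A)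
  refine Ex.congr (fun τ => ?_) (Ex.sub h3 h2)
  have h4 := den_ne γ τ
  rw [slash_eq, g, (h1 τ).1, E_smul, E_smul]
  have h5 : den γ' (hlf (γ.1 1 1) τ) = den γ τ / 2 := by
    rw [← (h1 τ).2]; ring
  rw [h5]
  field_simp
  ring

end Vale.Agent.P022.H889
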