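import Vale.Agent.P022.H889.E4

/-!
# P022-X, block [HS]: forms `H_s ≡ 1` at infinity and `≡ 0` at the other cusps of `Γ₀(2^s)`
-/

open scoped ModularForm MatrixGroups
open UpperHalfPlane Matrix

noncomputable section

namespace Vale.Agent.P022.H889

open Vale.Agent.P022.H220

/-- the weight of `H_s` -/
def kk : ℕ → ℕ
  | 0 => 0
  | s + 1 => 5 * kk s + 4

/-- `H_{s+1}(w) = g(w)^(k_s + 1) H_s(2w)` -/
def H : ℕ → ℍ → ℂ
  | 0 => fun _ => 1
  | s + 1 => fun τ => g τ ^ (kk s + 1) * H s (dbl τ)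

/-- `(1 + m x)` and its powers -/
theorem pow_one (A : Subring ℂ) {R : ℕ} {F : ℍ → ℂ} (m : ℕ) (hm : m ≠ 0)
    (h : Ex A.toAddSubgroup R (fun τ => (F τ - 1) / m)) (n : ℕ) :
    Ex A.toAddSubgroup R (fun τ => (F τ ^ n - 1) / m) := by
  have hm' : (m : ℂ) ≠ 0 := by exact_mod_cast hm
  induction n with
  | zero => exact Ex.congr (fun τ => by simp) Ex.zero
  | succ n IH =>
    have h1 := Ex.mul (C := A.toAddSubgroup) (fun _ ha _ hb => A.mul_mem ha hb) IH h
    have h2 : Ex A.toAddSubgroup R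
        (fun τ => (m : ℂ) * ((F τ ^ n - 1) / m * ((F τ - 1) / m))) :=
      Ex.smul (fun a ha => A.mul_mem (natCast_mem A m) ha) h1
    refine Ex.congr (fun τ => ?_) (Ex.add (Ex.add h2 IH) h)
    field_simp
    ring

/-- product of functions `≡ 1` -/
theorem mul_one' (A : Subring ℂ) {R : ℕ} {F G : ℍ → ℂ} (m : ℕ) (hm : m ≠ 0)
    (hF : Ex A.toAddSubgroup R (fun τ => (F τ - 1) / m))
    (hG : Ex A.toAddSubgroup R (fun τ => (G τ - 1) / m)) :
    Ex A.toAddSubgroup R (fun τ => (F τ * G τ - 1) / m) := by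
  have hm' : (m : ℂ) ≠ 0 := by exact_mod_cast hm
  have h1 := Ex.mul (C := A.toAddSubgroup) (fun _ ha _ hb => A.mul_mem ha hb) hF hG
  have h2 : Ex A.toAddSubgroup R
      (fun τ => (m : ℂ) * ((F τ - 1) / m * ((G τ - 1) / m))) :=
    Ex.smul (fun a ha => A.mul_mem (natCast_mem A m) ha) h1
  refine Ex.congr (fun τ => ?_) (Ex.add (Ex.add h2 hF) hG)
  field_simp
  ring

/-- `H_s ∈ 1 + 2 A[[q]]` -/
theorem H_one (A : Subring ℂ) (s : ℕ) :
    Ex A.toAddSubgroup 1 (fun τ => (H s τ - 1) / (2 : ℕ)) := by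
  induction s with
  | zero => exact Ex.congr (fun τ => by simp [H]) Ex.zero
  | succ s IH =>
    have h1 : Ex A.toAddSubgroup 1 (fun τ => (g τ - 1) / (2 : ℕ)) :=
      Ex.congr (fun τ => by push_cast; ring) (Ex.smul (c := 8) (B := A.toAddSubgroup)
        (fun a ha => A.mul_mem (by exact_mod_cast natCast_mem A 8) ha) (g_one A))
    have h2 : Ex A.toAddSubgroup 1 (fun τ => (H s (dbl τ) - 1) / (2 : ℕ)) :=
      Ex.dil (c := 2) (by norm_num) (fun τ => ⟨dbl τ, by simp, rfl⟩) IH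
    exact mul_one' A 2 (by norm_num) (pow_one A 2 (by norm_num) h1 _) h2

/-- the slash of a product with `g ^ n` -/
theorem slash_succ (s : ℕ) (γ : SL(2, ℤ)) (τ : ℍ) :
    (H (s + 1) ∣[((kk (s + 1) : ℕ) : ℤ)] γ) τ =
      (g ∣[((4 : ℕ) : ℤ)] γ) τ ^ (kk s + 1) *
        ((fun τ => H s (dbl τ)) ∣[((kk s : ℕ) : ℤ)] γ) τ := by
  rw [slash_eq, slash_eq, slash_eq, div_pow, ← pow_mul, div_mul_div_comm, ← pow_add]
  congr 1
  congr 1
  show 5 * kk s + 4 = _
  ring

/-- `H_s` is invariant under `Γ₀(2^s)` -/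
theorem H_inv (s : ℕ) (γ : SL(2, ℤ)) (h : ((2 ^ s : ℕ) : ℤ) ∣ γ.1 1 0) :
    H s ∣[((kk s : ℕ) : ℤ)] γ = H s := by
  induction s generalizing γ with
  | zero =>
    funext τ
    rw [slash_eq]
    simp [H, kk]
  | succ s IH =>
    have h2 : (2 : ℤ) ∣ γ.1 1 0 := by
      refine dvd_trans ?_ h
      exact_mod_cast dvd_pow_self 2 (Nat.succ_ne_zero s)
    obtain ⟨γ', h3, h4⟩ := dbl_even γ h2
    have h5 : ((2 ^ s : ℕ) : ℤ) ∣ γ'.1 1 0 := by
      rw [h3, pow_succ, mul_comm (2 ^ s) 2] at h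
      push_cast at h
      push_cast
      exact (mul_dvd_mul_iff_left two_ne_zero).1 h
    funext τ
    rw [slash_succ, slash_even (H s) (kk s) γ γ' h4, IH γ' h5, g_even γ h2]
    rfl

/-- `H_s ∣ γ ∈ A[[q^(1/2^s)]]` for every `γ`, `∈ 2 A[[q^(1/2^s)]]` outside `Γ₀(2^s)` -/
theorem H_off (A : Subring ℂ) (hA : Ex.RootStable A.toAddSubgroup) (s : ℕ) (γ : SL(2, ℤ))
    (h : ¬ ((2 ^ s : ℕ) : ℤ) ∣ γ.1 1 0) :
    Ex A.toAddSubgroup (2 ^ s) (fun τ => (H s ∣[((kk s : ℕ) : ℤ)] γ) τ / 2) := by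
  induction s generalizing γ with
  | zero => exact absurd (by simp) h
  | succ s IH =>
    by_cases h2 : (2 : ℤ) ∣ γ.1 1 0
    · obtain ⟨γ', h3, h4⟩ := dbl_even γ h2
      have h5 : ¬ ((2 ^ s : ℕ) : ℤ) ∣ γ'.1 1 0 := by
        intro h6
        apply h
        rw [h3, pow_succ, mul_comm (2 ^ s) 2]
        push_cast
        push_cast at h6
        exact mul_dvd_mul_left 2 h6
      have h6 := IH γ' h5
      have h7 : Ex A.toAddSubgroup (2 ^ s * 2)
          (fun τ => (H s ∣[((kk s : ℕ) : ℤ)] γ') (dbl τ) / 2) :=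
        Ex.up (by positivity) (by norm_num)
          (Ex.dil (c := 2) (by norm_num) (fun τ => ⟨dbl τ, by simp, rfl⟩) h6)
      have h8 : Ex A.toAddSubgroup (1 * 2 ^ (s + 1)) (fun τ => g τ) := by
        refine Ex.up (by norm_num) (by positivity) ?_
        have h9 : Ex A.toAddSubgroup 1 (fun τ => 16 * ((g τ - 1) / 16)) :=
          Ex.smul (fun a ha => A.mul_mem (by exact_mod_cast natCast_mem A 16) ha) (g_one A)
        exact Ex.congr (fun τ => by ring) (Ex.add h9 (Ex.const A.one_mem))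
      rw [one_mul] at h8
      have h10 := Ex.mul (C := A.toAddSubgroup) (fun _ ha _ hb => A.mul_mem ha hb) (Ex.pow h8 (kk s + 1)) h7
      refine Ex.congr (fun τ => ?_) h10
      rw [slash_succ, slash_even (H s) (kk s) γ γ' h4, g_even γ h2]
      ring
    · obtain ⟨γ', h4⟩ := dbl_odd γ h2
      have h6 : Ex A.toAddSubgroup (2 ^ s) (fun τ => (H s ∣[((kk s : ℕ) : ℤ)] γ') τ) := by
        by_cases h5 : ((2 ^ s : ℕ) : ℤ) ∣ γ'.1 1 0
        · rw [H_inv s γ' h5]
          have h9 : Ex A.toAddSubgroup (1 * 2 ^ s) (fun τ => 2 * ((H s τ - 1) / (2 : ℕ))) :=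
            Ex.up (by norm_num) (by positivity)
              (Ex.smul (fun a ha => A.mul_mem (by exact_mod_cast natCast_mem A 2) ha) (H_one A s))
          rw [one_mul] at h9
          exact Ex.congr (fun τ => by push_cast; ring) (Ex.add h9 (Ex.const A.one_mem))
        · have h9 := Ex.smul (c := 2) (B := A.toAddSubgroup)
            (fun a ha => A.mul_mem (by exact_mod_cast natCast_mem A 2) ha) (IH γ' h5)
          exact Ex.congr (fun τ => by ring) h9
      have h7 : Ex A.toAddSubgroup (2 ^ s * 2)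
          (fun τ => (H s ∣[((kk s : ℕ) : ℤ)] γ') (hlf (γ.1 1 1) τ)) :=
        Ex.tri (c := 1) (by positivity) hA (by norm_num) (by norm_num) (γ.1 1 1)
          (fun τ => ⟨hlf (γ.1 1 1) τ, by simp, rfl⟩) h6
      have h8 : Ex A.toAddSubgroup (2 * 2 ^ s) (fun τ => (g ∣[((4 : ℕ) : ℤ)] γ) τ / 16) :=
        Ex.up (by norm_num) (by positivity) (g_odd A hA γ h2)
      rw [mul_comm 2 (2 ^ s)] at h8
      have h10 := Ex.mul (C := A.toAddSubgroup) (fun _ ha _ hb => A.mul_mem ha hb) (Ex.pow h8 (kk s + 1)) h7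
      have h11 := Ex.smul (c := 2 ^ (3 * kk s + 3)) (B := A.toAddSubgroup)
        (fun a ha => A.mul_mem (A.pow_mem (by exact_mod_cast natCast_mem A 2) _) ha) h10
      refine Ex.congr (fun τ => ?_) h11
      rw [slash_succ]
      have h12 := slash_odd (H s) (kk s) γ γ' _ h4 τ
      rw [← h12, div_pow, show (16 : ℂ) = 2 ^ 4 by norm_num, ← pow_mul]
      field_simp
      ring

end Vale.Agent.P022.H889
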