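import Vale.Agent.P022.H477.RDef
import Vale.Agent.P022.H964.Thx

/-!
# P022-R, [REX], part 1: invariance of `Q` and of the finite Fourier transform under the unit

-/

open UpperHalfPlane hiding I
open Filter Topology Matrix.SpecialLinearGroup CongruenceSubgroup Complex
open scoped MatrixGroups ModularForm Manifold Real ComplexConjugate

noncomputable section

namespace Vale.Agent.P022.H889

open Vale.Agent.P022 Vale.Agent.P022.H352 Vale.Agent.P022.H477 Vale.Agent.P022.H964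
open Vale.Agent.P022.H220

/-! ### algebra of the embeddings -/

section alg

variable {a b c : ℤ} {D : ℕ}

theorem e1_mul_e2 (h : b ^ 2 - 4 * a * c = D) (v : ℤ × ℤ) :
    e1 a b D v * e2 a b D v = a * Qf a b c v := by
  have hD : √(D : ℝ) ^ 2 = D := Real.sq_sqrt (Nat.cast_nonneg D)
  have h' : (b : ℝ) ^ 2 - 4 * a * c = D := by exact_mod_cast h
  simp only [e1, e2, Qf]
  push_cast
  linear_combination (-(v.2 : ℝ) ^ 2 / 4) * hD + ((v.2 : ℝ) ^ 2 / 4) * h'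

theorem wedge (v w : ℤ × ℤ) : e1 a b D v * e2 a b D w - e2 a b D v * e1 a b D w =
    -(a * √(D : ℝ)) * ((v.1 * w.2 - v.2 * w.1 : ℤ) : ℝ) := by
  simp only [e1, e2]
  push_cast
  ring

theorem Q_inv {u : ℝ} {A : (ℤ × ℤ) ≃+ (ℤ × ℤ)} (hA : Unt a b D u A) (ha : 0 < a)
    (h : b ^ 2 - 4 * a * c = D) (v : ℤ × ℤ) : Qf a b c (A v) = Qf a b c v := by
  have hu : u ≠ 0 := (lt_trans one_pos hA.one_lt).ne'
  have h1 := e1_mul_e2 h (A v)
  have h2 := e1_mul_e2 h v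
  rw [hA.h1, hA.h2] at h1
  have h3 : (a : ℝ) * Qf a b c (A v) = a * Qf a b c v := by
    rw [← h1, ← h2]
    field_simp
  have ha' : (a : ℝ) ≠ 0 := by exact_mod_cast ha.ne'
  exact_mod_cast mul_left_cancel₀ ha' h3

theorem wedge_inv {u : ℝ} {A : (ℤ × ℤ) ≃+ (ℤ × ℤ)} (hA : Unt a b D u A) (ha : 0 < a)
    (hD : 0 < D) (v w : ℤ × ℤ) : (A v).1 * (A w).2 - (A v).2 * (A w).1 =
      v.1 * w.2 - v.2 * w.1 := by
  have hu : u ≠ 0 := (lt_trans one_pos hA.one_lt).ne'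
  have h1 := wedge (a := a) (b := b) (D := D) (A v) (A w)
  have h2 := wedge (a := a) (b := b) (D := D) v w
  rw [hA.h1, hA.h2, hA.h1, hA.h2] at h1
  have h3 : -(a * √(D : ℝ)) * (((A v).1 * (A w).2 - (A v).2 * (A w).1 : ℤ) : ℝ) =
      -(a * √(D : ℝ)) * ((v.1 * w.2 - v.2 * w.1 : ℤ) : ℝ) := by
    rw [← h1, ← h2]
    field_simp
  have ha' : -(a * √(D : ℝ)) ≠ 0 := by
    have hs : √(D : ℝ) ≠ 0 := (Real.sqrt_pos.2 (by exact_mod_cast hD)).ne'
    have ha' : (a : ℝ) ≠ 0 := by exact_mod_cast ha.ne'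
    exact neg_ne_zero.2 (mul_ne_zero ha' hs)
  exact_mod_cast mul_left_cancel₀ ha' h3

end alg

/-! ### invariance of the Fourier transform -/

/-- the automorphism induced on `(ℤ / M)²` -/
def red (M : ℕ) (v : ℤ × ℤ) : ZMod M × ZMod M := (v.1, v.2)

def lft (M : ℕ) (x : ZMod M × ZMod M) : ℤ × ℤ := ((x.1.val : ℤ), (x.2.val : ℤ))

theorem red_lft {M : ℕ} [NeZero M] (x : ZMod M × ZMod M) : red M (lft M x) = x := by
  simp [red, lft]

theorem lft_red {M : ℕ} [NeZero M] (v : ℤ × ℤ) : ∃ k : ℤ × ℤ, lft M (red M v) = v + (M : ℤ) • k := by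
  have h : ∀ x : ℤ, ∃ k : ℤ, (((x : ZMod M).val : ℕ) : ℤ) = x + M * k := by
    intro x
    have h1 : ((((x : ZMod M).val : ℕ) : ℤ) : ZMod M) = ((x : ℤ) : ZMod M) := by simp
    rw [ZMod.intCast_eq_intCast_iff_dvd_sub] at h1
    obtain ⟨k, hk⟩ := h1
    exact ⟨-k, by linarith⟩
  obtain ⟨k1, h1⟩ := h v.1
  obtain ⟨k2, h2⟩ := h v.2
  refine ⟨(k1, k2), ?_⟩
  ext
  · simpa [lft, red] using h1
  · simpa [lft, red] using h2

theorem red_add {M : ℕ} (v k : ℤ × ℤ) : red M (v + (M : ℤ) • k) = red M v := by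
  ext <;> simp [red]

/-- the bijection of `(ℤ / M)²` -/
def redE (M : ℕ) [NeZero M] (A : (ℤ × ℤ) ≃+ (ℤ × ℤ)) : (ZMod M × ZMod M) ≃ (ZMod M × ZMod M) where
  toFun x := red M (A (lft M x))
  invFun x := red M (A.symm (lft M x))
  left_inv x := by
    obtain ⟨k, hk⟩ := lft_red (M := M) (A (lft M x))
    dsimp only
    rw [hk, map_add, map_zsmul, AddEquiv.symm_apply_apply, red_add, red_lft]
  right_inv x := by
    obtain ⟨k, hk⟩ := lft_red (M := M) (A.symm (lft M x))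
    dsimp only
    rw [hk, map_add, map_zsmul, AddEquiv.apply_symm_apply, red_add, red_lft]

theorem sum_fin {M : ℕ} [NeZero M] (G : ℤ × ℤ → ℂ) (hG : Per M G) :
    ∑ i : Fin M, ∑ j : Fin M, G ((i.1 : ℤ), (j.1 : ℤ)) = ∑ x : ZMod M × ZMod M, G (lft M x) := by
  obtain ⟨n, rfl⟩ := Nat.exists_eq_succ_of_ne_zero (NeZero.ne M)
  rw [Fintype.sum_prod_type]
  rfl

theorem sum_inv {M : ℕ} [NeZero M] (G : ℤ × ℤ → ℂ) (hG : Per M G) (A : (ℤ × ℤ) ≃+ (ℤ × ℤ)) :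
    ∑ i : Fin M, ∑ j : Fin M, G (A ((i.1 : ℤ), (j.1 : ℤ))) =
      ∑ i : Fin M, ∑ j : Fin M, G ((i.1 : ℤ), (j.1 : ℤ)) := by
  have hG' : Per M (fun v => G (A v)) := by
    intro v k
    dsimp only
    rw [map_add, map_zsmul]
    exact hG _ _
  rw [sum_fin (fun v => G (A v)) hG', sum_fin G hG]
  refine (Finset.sum_congr rfl fun x _ => ?_).trans
    (Equiv.sum_comp (redE M A) (fun x => G (lft M x)))
  obtain ⟨k, hk⟩ := lft_red (M := M) (A (lft M x))
  show G (A (lft M x)) = G (lft M (red M (A (lft M x))))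
  rw [hk, hG]

/-- the finite Fourier transform of an invariant function is invariant -/
theorem hatF_inv {a b : ℤ} {D : ℕ} (ha : 0 < a) (hD : 0 < D) {u : ℝ} {A : (ℤ × ℤ) ≃+ (ℤ × ℤ)}
    (hA : Unt a b D u A) {M : ℕ} (hM : 0 < M) {f : ℤ × ℤ → ℂ} (hf : Per M f)
    (hi : ∀ v, f (A v) = f v) (v : ℤ × ℤ) : hatF M f (A v) = hatF M f v := by
  have : NeZero M := ⟨hM.ne'⟩
  have hM' : (M : ℂ) ≠ 0 := by exact_mod_cast hM.ne'
  set G : ℤ × ℤ → ℂ := fun h => f h *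
    cexp (2 * π * I * (((A v).1 * h.2 - (A v).2 * h.1 : ℤ) : ℂ) / M) with hG
  have hG' : Per M G := by
    intro h k
    simp only [hG, hf h k]
    congr 1
    have h4 : (2 * π * I * ((((A v).1 * (h + (M : ℤ) • k).2 -
        (A v).2 * (h + (M : ℤ) • k).1 : ℤ) : ℂ)) / M) =
        2 * π * I * (((A v).1 * h.2 - (A v).2 * h.1 : ℤ) : ℂ) / M +
          (((A v).1 * k.2 - (A v).2 * k.1 : ℤ) : ℂ) * (2 * π * I) := by
      simp only [Prod.fst_add, Prod.snd_add, Prod.smul_fst, Prod.smul_snd, smul_eq_mul]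
      push_cast
      field_simp
      ring
    rw [h4, Complex.exp_add, Complex.exp_int_mul_two_pi_mul_I, mul_one]
  have h1 := sum_inv G hG' A
  have h2 : hatF M f (A v) = ∑ i : Fin M, ∑ j : Fin M, G ((i.1 : ℤ), (j.1 : ℤ)) := rfl
  rw [h2, ← h1, hatF]
  refine Finset.sum_congr rfl fun i _ => Finset.sum_congr rfl fun j _ => ?_
  simp only [hG, hi]
  rw [wedge_inv hA ha hD]

end Vale.Agent.P022.H889
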